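import Vale.Agent.P057HT.Sg
import Vale.Agent.P057SY.Plan

/-! The symmetrised form is the label of the diagonal coordinate up to its position. -/

set_option linter.all false

open Matrix Finset MvPolynomial
open Vale.Agent.P267.H775 Vale.Agent.P057G Vale.Agent.P057PC Vale.Agent.P057TP Vale.Agent.P057MA
open Vale.Agent.P057TE Vale.Agent.P057SY Vale.Agent.P057AD

namespace Vale.Agent.P057HT

noncomputable section

variable {T P : Tow} {tr : P.ι → ℕ} {s m : ℕ} {V K : Type} [Fintype V] [DecidableEq V]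

/-- the point with the given labels -/
def pnt (x : SA T V m → ℝ) : T.ι → Alg (Multiset V) := (fr SL.cd SL.fc 0).pt x

theorem pnt_pos (x : SA T V m → ℝ) (k : SA T V m) : (pnt x k.cd).coeff k.fc.val = x k :=
  ((fr_sl fun _ _ _ _ => trivial).ok 0).coeff_pt x k

theorem pnt_neg (x : SA T V m → ℝ) {a : T.ι} {A : Finset V} (h : A.card ≠ T.lv a) :
    (pnt x a).coeff A.val = 0 := by
  classical
  refine (Cf.coeff_pt _ _ _ _).trans (sum_eq_zero fun l _ => if_neg fun k => h ?_)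
  rw [← show l.cd = a from k.1, ← val_injective (show l.fc.val = A.val from k.2)]
  exact l.2.2.1

theorem cv_eq {L : Type} [Fintype L] (cd : L → T.ι) (fc : L → Finset V) (a : T.ι) (F : Finset V)
    (x : L → ℝ) : cv T cd fc a F x = (aeval ((fr cd fc 0).pt x) (T.q a)).coeff F.val :=
  congrArg (AddMonoidAlgebra.coeff · F.val) ((congrArg _ (map_zero _)).trans (add_zero _))

theorem ln2_eq (x : SA T V m → ℝ) : ln2 (S0 T V m) univ x =
    25 * ∑ μ ∈ univ.image fun l : SA T V m => l.fc.val,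
      qq T.G fun a => (pnt (x - (S0 T V m).p x) a).coeff μ := by
  rw [ln2, show msk univ (x - (S0 T V m).p x) = _ from funext fun i => msk_pos _ (mem_univ i)]
  exact (qq_smul_mat _ _ _).trans (congrArg _ (Cf.qq_Gam _ _ _))

theorem ln2_nn (hG : T.G.PosDef) (x : SA T V m → ℝ) : 0 ≤ ln2 (S0 T V m) univ x := by
  rw [ln2_eq]
  exact mul_nonneg (by norm_num) (sum_nonneg fun _ _ => qq_nonneg hG.posSemidef _)

theorem qq_face (hG : T.G.PosDef) (x : SA T V m → ℝ) (l : SA T V m) :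
    qq T.G (fun a => (pnt (x - (S0 T V m).p x) a).coeff l.fc.val) ≤ ln2 (S0 T V m) univ x := by
  have h0 := fun v => qq_nonneg hG.posSemidef v
  have := single_le_sum (f := fun μ => qq T.G fun a => (pnt (x - (S0 T V m).p x) a).coeff μ)
    (fun μ _ => h0 _) (mem_image_of_mem (fun l : SA T V m => l.fc.val) (mem_univ l))
  rw [ln2_eq]
  exact this.trans (le_mul_of_one_le_left (sum_nonneg fun _ _ => h0 _) (by norm_num))

theorem pnt_ps (x : SA T V m → ℝ) {A : Finset V} (hA : A.card < m) :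
    (fun a => (pnt (x - (S0 T V m).p x) a).coeff A.val) = fun b =>
      if T.lv b = A.card then (pnt x b - aeval (pnt x) (T.q b)).coeff A.val else 0 := by
  funext b
  split_ifs with k
  · let l : SA T V m := ⟨(b, A), k.trans_lt hA, k.symm, trivial⟩
    rw [AddMonoidAlgebra.coeff_sub, Finsupp.sub_apply]
    exact (pnt_pos _ l).trans (congrArg₂ (· - ·) (pnt_pos x l).symm
      ((add_zero _).trans (cv_eq _ _ _ _ _)))
  · exact pnt_neg _ (Ne.symm k)

theorem key_alg (h : Pre P tr s) (y : P.ι → Alg (Multiset V)) (μ : Multiset V) (a : P.ι) :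
    (LP P *ᵥ fun b => (y b - aeval y ((flt P).q b)).coeff μ) a =
      (y a - aeval y (P.q a)).coeff μ := by
  have := h.key (algebraMap ℝ (Alg (Multiset V))) (p := fun a => MvPolynomial.map _ (P.q a))
    (fun a β hβ => (h.hom a (mem_support_iff.1 (support_map_subset _ _ hβ))).le)
    (fun _ _ _ => coeff_map _ _ _) y a
  rw [eval_map, ← aeval_def] at this
  rw [← this, AddMonoidAlgebra.coeff_sum, Finsupp.finsetSum_apply]
  refine sum_congr rfl fun b _ => ?_
  rw [← Algebra.smul_def, AddMonoidAlgebra.coeff_smul, Finsupp.smul_apply]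
  refine congrArg (fun u => LP P a b * (y b - u).coeff μ) ?_
  rw [aeval_def, ← eval_map]
  simp only [map_sum, map_mul, map_kil, map_C]

/-- the positions before the shear -/
def pos (x : SA P V m → ℝ) (A : Finset V) (a : P.ι) : ℝ :=
  if P.lv a = A.card then (pnt x a - aeval (pnt x) (P.q a)).coeff A.val else 0

/-- the sheared positions on one face -/
theorem pos_le (h : Pre P tr s) (x : SA P V m → ℝ) {A : Finset V} (hA : A.card < m) :
    qq P.G (pos x A) ≤ ln2 (S0 (flt P) V m) univ x := by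
  by_cases k : ∃ b, P.lv b = A.card
  · obtain ⟨b, k⟩ := k
    refine le_trans (le_of_eq ?_) (qq_face h.ok0.pd x ⟨(b, A), k.trans_lt hA, k.symm, trivial⟩)
    refine Eq.trans ?_ (congrArg _ (pnt_ps (T := flt P) x hA).symm)
    refine Eq.trans (congrArg _ ?_) (qq_conj _ _ _).symm
    refine Eq.trans (funext fun a => ?_) (bd_LP.mask (· = A.card) _).symm
    exact if_congr Iff.rfl (key_alg h _ _ a).symm rfl
  · rw [show pos x A = 0 from funext fun a => if_neg fun c => k ⟨a, c⟩, qq_zero]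
    exact ln2_nn h.ok0.pd _

variable [Fintype K] [DecidableEq K]

theorem ln2_clo {R : Type} [Fintype R] [DecidableEq R] (X : Xt V (SA T V m) K)
    (r : R → Equiv.Perm V) (y : SA T V m ⊕ R × K → ℝ) :
    ln2 (xt (S0 T V m) (X.clo r)) univ y = ln2 (S0 T V m) univ (y ∘ Sum.inl) +
      ∑ a, qq X.G fun e => y (Sum.inr (a, e)) - X.g (cpr r a y) e := by
  have e : ∀ {ι : Type} [Fintype ι] [DecidableEq ι] (u : ι → ℝ), msk univ u = u :=
    fun u => funext fun i => msk_pos _ (mem_univ i)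
  rw [ln2, ln2, e, e]
  refine (qq_blocks _ _ _).trans (congrArg _ ?_)
  simp only [qq, dotProduct, mulVec, Fintype.sum_prod_type, of_apply, ite_mul, zero_mul,
    sum_ite_irrel, sum_const_zero, sum_ite_eq, mem_univ, if_true]
  rfl

/-- the diagonal substitution -/
def dg {ν : Type} (eo : T.ι → ν) (en : K → ν) : SA T V m ⊕ K → MvPolynomial ν ℝ :=
  Sum.elim (fun k => C (k.fc.card.factorial : ℝ) * X (eo k.cd)) fun e => X (en e)

/-- the labels and extra coordinates seen through a permutation -/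
def zv (eo : T.ι → P.ι) (x : SA P V m → ℝ) (n : Equiv.Perm V → K → ℤ) (ρ : Equiv.Perm V) :
    SA T V m ⊕ K → ℝ :=
  Sum.elim (fun k => (pnt x (eo k.cd)).coeff (k.fc.map ρ.toEmbedding).val) (toR (n ρ))

theorem sym_eq {X : Xt V (SA T V m) K} (hX : X.Ok (S0 T V m))
    (sep : ∀ k : K → ℤ, k ≠ 0 → 1 ≤ qq X.G (toR k)) {eo : T.ι → P.ι} {en : K → P.ι}
    (l1 : ∀ a, P.lv (eo a) = T.lv a) (l2 : ∀ e, P.lv (en e) = (X.fc e).card)
    (hm : Fintype.card V < m) {pe : K → MvPolynomial (SA T V m ⊕ K) ℝ}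
    (a1 : ∀ e z, X.g z e = eval z (pe e))
    (a2 : ∀ e, (pe e).IsWeightedHomogeneous (fun i => (Sum.elim SL.fc X.fc i).val) (X.fc e).val)
    (a3 : ∀ e e', Sum.inr e' ∈ (pe e).vars → X.tr e' < X.tr e)
    (a4 : ∀ e, P.q (en e) = bind₁ (dg eo en) (pe e)) {x : SA P V m → ℤ}
    {n : Equiv.Perm V → K → ℤ} {δ : ℝ} (q1 : ∀ A : Finset V, qq X.G (pos (toR x) A ∘ en) ≤ δ)
    (q2 : ∀ ρ, qq X.G (fun e => n ρ e - X.g (zv eo (toR x) n ρ) e) ≤ δ)
    (hδ : ∀ k : ℕ, k ≤ (Fintype.card V).factorial → (2 + 2 * (k : ℝ) ^ 2) * δ < 1)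
    {p : MvPolynomial (SA T V m ⊕ K) ℝ}
    (hp : p.IsWeightedHomogeneous (fun i => (Sum.elim SL.fc X.fc i).val) univ.val) :
    ∑ ρ, eval (zv eo (toR x) n ρ) p = (aeval (pnt (toR x)) (bind₁ (dg eo en) p)).coeff univ.val := by
  classical
  have hA : ∀ A : Finset V, A.card < m := fun A => (card_le_univ A).trans_lt hm
  set z := zv eo (toR x) n with hz0
  let U : SA T V m ⊕ K → Alg (Multiset V) := fun i => aeval (pnt (toR x)) (dg eo en i)
  have bd : Bd (fun e => (X.fc e, X.tr e)) (fun e => (X.fc e, X.tr e)) X.G := fun e e' k =>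
    by_contra fun c => k (Prod.ext (hX.ort e e' c).1 (hX.ort e e' c).2)
  have z2 : ∀ (k : SA T V m) ρ ρ', (∀ v ∈ k.fc, ρ v = ρ' v) → z ρ (Sum.inl k) = z ρ' (Sum.inl k) :=
    fun k ρ ρ' e => congrArg (pnt (toR x) (eo k.cd)).coeff (Multiset.map_congr rfl e)
  have z3 : ∀ e ρ ρ', (∀ v ∈ X.fc e, ρ v = ρ' v) → z ρ (Sum.inr e) = z ρ' (Sum.inr e) := fun e => by
    induction e using (measure X.tr).wf.induction with
    | _ e ih =>
      intro ρ ρ' k
      have := int_zero hX.pd bd sep {ρ'} (q2 ρ) (fun j _ => q2 j) (hδ _ (Nat.factorial_pos _))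
        (k := fun e => n ρ e - n ρ' e) (e := e) fun e' c => by
          have c1 : X.fc e' = X.fc e := congrArg Prod.fst c
          have c2 : X.tr e' = X.tr e := congrArg Prod.snd c
          rw [sum_singleton, hX.loc e' (z ρ) (z ρ') (fun i hi => z2 i _ _ fun v hv =>
            k v (c1 ▸ hi hv)) fun i h1 h2 => ih i (h2.trans_eq c2) _ _ fun v hv => k v (c1 ▸ h1 hv)]
          push_cast
          ring
      exact congrArg Int.cast (sub_eq_zero.1 this)
  have hz : ∀ i ρ ρ', (∀ v ∈ Sum.elim SL.fc X.fc i, ρ v = ρ' v) → z ρ i = z ρ' i := by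
    rintro (k | e)
    exacts [z2 k, z3 e]
  have u1 : ∀ (k : SA T V m) (A : Finset V), (U (Sum.inl k)).coeff A.val =
      ∑ χ ∈ Nb k.fc A, z (ext k.fc χ) (Sum.inl k) := fun k A => by
    refine Eq.trans ?_ (sum_congr rfl fun χ hχ => congrArg (fun A : Finset V =>
      (pnt (toR x) (eo k.cd)).coeff A.val) (map_ext hχ).symm)
    rw [sum_const, nsmul_eq_mul, card_Nb]
    simp only [U, dg, Sum.elim_inl, map_mul, aeval_C, aeval_X, ← Algebra.smul_def,
      AddMonoidAlgebra.coeff_smul, Finsupp.smul_apply, smul_eq_mul]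
    split_ifs with c
    · rfl
    · rw [pnt_neg (a := eo k.cd) _ fun c' => c (c'.trans ((l1 _).trans k.2.2.1.symm)), mul_zero,
        zero_mul]
  have u2 : ∀ (e : K) (A : Finset V), (U (Sum.inr e)).coeff A.val =
      ∑ χ ∈ Nb (X.fc e) A, z (ext (X.fc e) χ) (Sum.inr e) := fun e => by
    induction e using (measure X.tr).wf.induction with
    | _ e ih =>
      intro A
      have hc := card_Nb (X.fc e) A
      have u0 : U (Sum.inr e) = pnt (toR x) (en e) := aeval_X _ _
      rw [u0]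
      split_ifs at hc with c
      · let l : ∀ e', X.fc e' = X.fc e → SA P V m := fun e' k => ⟨(en e', A),
          (l2 _).trans_lt (hA _), c.trans ((congrArg card k).symm.trans (l2 _).symm), trivial⟩
        have := int_zero hX.pd bd sep (Nb (X.fc e) A) (q1 A)
          (fun χ _ => q2 (ext (X.fc e) χ)) (hδ _ ((Nat.cast_injective hc).trans_le
            (Nat.factorial_le (card_le_univ _))))
          (k := fun e' => (if k : X.fc e' = X.fc e then x (l e' k) else 0) -
            ∑ χ ∈ Nb (X.fc e) A, n (ext (X.fc e) χ) e') (e := e) fun e' k => by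
            have c1 : X.fc e' = X.fc e := congrArg Prod.fst k
            have c2 : X.tr e' = X.tr e := congrArg Prod.snd k
            have h3 := coeff_aeval hz (a2 e') (U := U) (by
              rintro (i | i) hi
              exacts [u1 i, ih i ((a3 e' i hi).trans_eq c2)]) A
            rw [Function.comp_apply, pos, if_pos ((l2 _).trans ((congrArg card c1).trans c.symm)),
              AddMonoidAlgebra.coeff_sub, Finsupp.sub_apply, a4, aeval_bind₁, h3, dif_pos c1, c1,
              sum_sub_distrib]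
            simp only [← a1]
            push_cast
            exact (congrArg (· - _) (pnt_pos (toR x) (l e' c1)).symm).trans
              (sub_sub_sub_cancel_right _ _ _).symm
        rw [dif_pos rfl, sub_eq_zero] at this
        refine (pnt_pos (toR x) (l e rfl)).trans ((congrArg Int.cast this).trans ?_)
        exact Int.cast_sum _ _
      · rw [pnt_neg _ fun c' => c (c'.trans (l2 _)), card_eq_zero.1 (Nat.cast_eq_zero.1 hc),
          sum_empty]
  have h3 := coeff_aeval hz hp (U := U) (by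
    rintro (i | i) _
    exacts [u1 i, u2 i]) univ
  rw [aeval_bind₁, h3]
  exact (sum_Nb_univ fun ρ => eval (z ρ) p).symm

theorem zv_eq {eo : T.ι → P.ι} (l1 : ∀ a, P.lv (eo a) = T.lv a) {φ : T.ι → MvPolynomial P.ι ℤ}
    (hφ : ∀ a, φ a = MvPolynomial.X (eo a)) (y : SA P V m ⊕ Equiv.Perm V × K → ℤ)
    (ρ : Equiv.Perm V) : sg (pol φ) (cpr id ρ (toR y)) =
      zv eo (toR (y ∘ Sum.inl)) (fun ρ e => y (Sum.inr (ρ, e))) ρ := by
  funext i
  rcases i with k | e
  · let l : SA P V m := ⟨(eo k.cd, k.fc), (l1 _).trans_lt k.2.1, k.2.2.1.trans (l1 _).symm, trivial⟩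
    refine Eq.trans ?_ (pnt_pos (toR (y ∘ Sum.inl)) (pa ρ l)).symm
    refine Eq.trans ?_ (pnt_pos (cpr id ρ (toR y) ∘ Sum.inl) l)
    change AddMonoidAlgebra.coeff (eval₂ _ _ (φ k.cd)) _ = _
    rw [hφ, eval₂_X]
    rfl
  · rfl

theorem hat_core (h : Pre P tr s) {X : Xt V (SA T V m) K} (hX : X.Ok (S0 T V m))
    (sep : ∀ k : K → ℤ, k ≠ 0 → 1 ≤ qq X.G (toR k)) {ψ : (SA T V m ⊕ K → ℝ) → ℝ}
    {eo : T.ι → P.ι} {en : K → P.ι} {a₀ : P.ι} (l1 : ∀ a, P.lv (eo a) = T.lv a)
    (l2 : ∀ e, P.lv (en e) = (X.fc e).card) (l3 : P.lv a₀ = Fintype.card V)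
    (hm : Fintype.card V < m) {pe : K → MvPolynomial (SA T V m ⊕ K) ℝ}
    {p₀ : MvPolynomial (SA T V m ⊕ K) ℝ} (a1 : ∀ e z, X.g z e = eval z (pe e))
    (a2 : ∀ e, (pe e).IsWeightedHomogeneous (fun i => (Sum.elim SL.fc X.fc i).val) (X.fc e).val)
    (a3 : ∀ e e', Sum.inr e' ∈ (pe e).vars → X.tr e' < X.tr e)
    (a4 : ∀ e, P.q (en e) = bind₁ (dg eo en) (pe e)) (b1 : ∀ z, ψ z = eval z p₀)
    (b2 : p₀.IsWeightedHomogeneous (fun i => (Sum.elim SL.fc X.fc i).val) univ.val)
    (b4 : P.q a₀ = bind₁ (dg eo en) p₀) (g1 : ∀ v, qq X.G (v ∘ en) ≤ qq P.G v)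
    (g2 : ∀ v, v a₀ ^ 2 ≤ qq P.G v) {φ : T.ι → MvPolynomial P.ι ℤ}
    (hφ : ∀ a, φ a = MvPolynomial.X (eo a)) {B : ℝ}
    (hB : 2 + 2 * ((Fintype.card V).factorial : ℝ) ^ 2 < B) :
    Hat (T := flt P) (X.pull (pol (T' := flt P) φ)) (fun x => ψ (sg (pol (T' := flt P) φ) x)) B := by
  have B0 : 0 < B := lt_of_le_of_lt (by positivity) hB
  have hA : ∀ A : Finset V, A.card < m := fun A => (card_le_univ A).trans_lt hm
  let t : SA P V m := ⟨(a₀, univ), l3.trans_lt hm, l3.symm, trivial⟩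
  have f1 : Fm (S0 P V m) univ univ fun x => x t :=
    ⟨on_univ _, fun v _ => lin_coord ((S0 P V m).mem_st.2 (mem_univ v))⟩
  have f2 : Fm (S0 P V m) univ univ fun x => cv P SL.cd SL.fc a₀ univ x - x t :=
    Fm.sub ⟨on_univ _, fun v hv => lin_cv (c := 0) 25 a₀ hv⟩ f1
  refine ⟨fun x => x t, fun x : SA P V m → ℝ => cv P SL.cd SL.fc a₀ univ x - x t, ⟨f1.on, f1.lin⟩,
    IntV.coord t, ⟨f2.on, f2.lin⟩, fun (x : SA P V m → ℝ) hx => ?_,
    fun (y : SA P V m ⊕ Equiv.Perm V × K → ℤ) hy => ?_⟩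
  · have h1 := (g2 _).trans ((pos_le h x (hA univ)).trans hx)
    rw [pos, if_pos (l3.trans card_univ.symm), AddMonoidAlgebra.coeff_sub, Finsupp.sub_apply] at h1
    have h2 : |x t - cv P SL.cd SL.fc a₀ univ x| ≤ 1 := by
      rw [← sq_le_one_iff_abs_le_one, ← pnt_pos x t, cv_eq]
      exact h1
    rw [abs_sub_comm] at h2
    exact h2.trans (by nlinarith [sq_nonneg ((Fintype.card V).factorial : ℝ)])
  have q0 := fun v => qq_nonneg hX.pd.posSemidef v
  have hy' := (ln2_clo (T := flt P) _ _ _).symm.trans_le hy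
  have e := zv_eq l1 hφ y
  refine (sum_congr rfl fun ρ _ => (b1 _).trans (congrArg (eval · p₀) (e ρ))).trans
    ((sym_eq hX sep l1 l2 hm a1 a2 a3 a4 (δ := B⁻¹) (fun A => (g1 _).trans ((pos_le h _ (hA A)).trans
      ((le_add_of_nonneg_right (sum_nonneg fun _ _ => q0 _)).trans hy'))) (fun ρ => ?_)
      (fun n k => ?_) b2).trans ?_)
  · refine (congrArg (fun u => qq X.G fun e => y (Sum.inr (ρ, e)) - X.g u e) (e ρ)).symm.trans_le ?_
    exact (single_le_sum (f := fun ρ => qq X.G fun e => y (Sum.inr (ρ, e)) -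
      X.g (sg (pol φ) (cpr id ρ (toR y))) e) (fun _ _ => q0 _) (mem_univ ρ)).trans
        ((le_add_of_nonneg_left ((qq_nonneg h.pd.posSemidef _).trans (pos_le h _ (hA ∅)))).trans hy')
  · rw [← div_eq_mul_inv, div_lt_one B0]
    refine lt_of_le_of_lt ?_ hB
    gcongr
  · rw [← b4]
    exact (cv_eq _ _ _ _ _).symm.trans (add_sub_cancel _ _).symm

end

end Vale.Agent.P057HT
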