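import Vale.Agent.P057HT.Core
import Vale.Agent.P057AD.Addt
import Vale.Agent.P057GH.Mix
import Vale.Agent.P057ST.Shr

/-! New coordinates for the diagonals of the symbols. -/

set_option linter.all false

open Matrix Finset MvPolynomial
open Vale.Agent.P267.H775 Vale.Agent.P057G Vale.Agent.P057PC Vale.Agent.P057TP Vale.Agent.P057MA
open Vale.Agent.P057TE Vale.Agent.P057SY Vale.Agent.P057AD

namespace Vale.Agent.P057HT

noncomputable section

section mat

variable {K L : Type} [Fintype K] [DecidableEq K] [Fintype L] [DecidableEq L] {G : Matrix K K ℝ}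

theorem log_vol (hG : G.PosDef) : Real.log (vol G) = -(Real.log G.det / 2) := by
  rw [vol, Real.log_inv, Real.log_sqrt hG.det_pos.le]

theorem logdet_le_cx (hG : G.PosDef) {Y : ℝ} (h : th G⁻¹ 0 ≤ Real.exp Y) :
    Real.log G.det / 2 ≤ Y := by
  have h1 := (one_le_th_zero hG).trans ((th_zero_eq hG).trans_le
    (mul_le_mul_of_nonneg_left h (vol_pos hG).le))
  have h2 := Real.log_nonneg h1
  rw [Real.log_mul (vol_pos hG).ne' (Real.exp_pos _).ne', log_vol hG, Real.log_exp] at h2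
  linarith

/-- the determinant of a union of blocks of a separated form -/
theorem logdet_bk (hG : G.PosDef) (sep : ∀ k : K → ℤ, k ≠ 0 → 1 ≤ qq G (toR k)) (p : K → Prop)
    [DecidablePred p] (ho : ∀ i, ¬p i → ∀ j, p j → G i j = 0) :
    Real.log (bk G p).det / 2 ≤ Real.log G.det / 2 + 4 * ((Fintype.card K : ℝ) + 1) ^ 2 := by
  have h1 : G.det = (bk G p).det * (bk G fun i => ¬p i).det := twoBlockTriangular_det G p ho
  have h2 := posDef_bk hG fun i => ¬p i
  have h3 := (vol_le_th_zero h2).trans (th_sep h2 0 zero_le_one (fun z hz _ => by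
    rw [P057ST.qq_bk]
    obtain ⟨a, ha⟩ := Function.ne_iff.1 hz
    refine (sep (fun l => if h : ¬p l then z ⟨l, h⟩ else 0) (Function.ne_iff.2
      ⟨a, by rwa [dif_pos a.2]⟩)).trans_eq (congrArg _ (funext fun l => ?_))
    rw [toR_apply]
    split_ifs
    exacts [Int.cast_zero, rfl]) fun x => by
      rw [show toR (0 : {i // ¬p i} → ℤ) = 0 from funext fun _ => Int.cast_zero, zero_dotProduct]
      simpa using qq_nonneg h2.posSemidef x)
  rw [max_self, one_mul, ← Real.log_le_iff_le_exp (vol_pos h2), log_vol h2] at h3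
  have h4 : (Fintype.card {i // ¬p i} : ℝ) ≤ Fintype.card K :=
    Nat.cast_le.2 (Fintype.card_subtype_le _)
  rw [h1, Real.log_mul (posDef_bk hG p).det_pos.ne' h2.det_pos.ne']
  nlinarith [(Nat.cast_nonneg _ : (0 : ℝ) ≤ Fintype.card {i // ¬p i})]

theorem sq_le_one_mat (x : K → ℝ) (i : K) : x i ^ 2 ≤ qq (1 : Matrix K K ℝ) x := by
  simp only [qq, one_mulVec, dotProduct, ← sq]
  exact single_le_sum (f := fun i => x i ^ 2) (fun _ _ => sq_nonneg _) (mem_univ i)

theorem le_bd (hG : G.PosDef) (v : K × L → ℝ) (j : L) :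
    qq G (fun a => v (a, j)) ≤ qq (blockDiagonal fun _ => G) v := by
  rw [P057GH.qq_bd]
  exact single_le_sum (f := fun j => qq G fun a => v (a, j))
    (fun _ _ => qq_nonneg hG.posSemidef _) (mem_univ j)

theorem le_inl {H : Matrix L L ℝ} (hH : H.PosDef) (v : K ⊕ L → ℝ) :
    qq G (v ∘ Sum.inl) ≤ qq (fromBlocks G 0 0 H) v := by
  rw [qq_blocks]; exact le_add_of_nonneg_right (qq_nonneg hH.posSemidef _)

theorem le_inr (hG : G.PosDef) {H : Matrix L L ℝ} (v : K ⊕ L → ℝ) :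
    qq H (v ∘ Sum.inr) ≤ qq (fromBlocks G 0 0 H) v := by
  rw [qq_blocks]; exact le_add_of_nonneg_left (qq_nonneg hG.posSemidef _)

end mat

theorem exists_pe {V ι K : Type} [DecidableEq V] [Fintype ι] [DecidableEq ι] [Fintype K]
    [DecidableEq K] {S : MS V ι} {X : Xt V ι K} (hX : X.Ok S) (hc : (xt S X).Cen) (e : K) :
    ∃ p : MvPolynomial (ι ⊕ K) ℝ, (∀ z, X.g z e = eval z p) ∧
      p.IsWeightedHomogeneous (fun i => (Sum.elim S.fc X.fc i).val) (X.fc e).val ∧
      ∀ e', Sum.inr e' ∈ p.vars → X.tr e' < X.tr e := by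
  classical
  obtain ⟨p, h1, h2, h3⟩ := exists_mh (S := xt S X) hc.ne (B := X.fc e) (f := fun z => X.g z e)
    (q := univ.filter fun i => (xt S X).fc i ⊆ X.fc e ∧ ∀ e', i = Sum.inr e' → X.tr e' < X.tr e)
    (fun i hi => (mem_filter.1 hi).2.1) ⟨fun z z' h => hX.loc e z z'
      (fun i hi => h _ (mem_filter.2 ⟨mem_univ _, hi, fun _ k => by cases k⟩))
      fun i h1 h2 => h _ (mem_filter.2 ⟨mem_univ _, h1, fun _ k => by cases k; exact h2⟩),
      fun v hv => (hX.aff v e).lin (hc.zero v (Sum.inr e) hv)⟩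
  exact ⟨p, h2, h3, fun e' k => (mem_filter.1 (h1 k)).2.2 e' rfl⟩

section dg

variable {T : Tow} {V K ν : Type} {m : ℕ} {eo : T.ι → ν} {en : K → ν} {fc : K → Finset V}
  {p : MvPolynomial (SA T V m ⊕ K) ℝ}

theorem wh_dg [DecidableEq V] {lw : ν → ℕ} (l1 : ∀ a, lw (eo a) = T.lv a)
    (l2 : ∀ e, lw (en e) = (fc e).card) {B : Finset V}
    (h : p.IsWeightedHomogeneous (fun i => (Sum.elim SL.fc fc i).val) B.val) :
    (bind₁ (dg eo en) p).IsWeightedHomogeneous lw B.card := by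
  refine wh_bind (mh_card h) ?_
  rintro (k | e)
  · have := (isWeightedHomogeneous_X ℝ lw (eo k.cd)).C_mul (k.fc.card.factorial : ℝ)
    exact fun β c => (this c).trans ((l1 _).trans k.2.2.1.symm)
  · exact fun β c => (isWeightedHomogeneous_X ℝ lw (en e) c).trans (l2 e)

theorem vars_dg {b : ν} (h : b ∈ (bind₁ (dg eo en) p).vars) :
    (∃ a, b = eo a) ∨ ∃ e, Sum.inr e ∈ p.vars ∧ b = en e := by
  classical
  obtain ⟨k | e, h1, h2⟩ := mem_biUnion.1 (vars_bind₁ _ _ h)
  · have := vars_mul _ _ h2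
    rw [vars_C, empty_union, vars_X, mem_singleton] at this
    exact Or.inl ⟨k.cd, this⟩
  · exact Or.inr ⟨e, h1, by simpa [dg] using h2⟩

end dg

variable {C W E : Type} [Fintype W] [DecidableEq W] {cl : W → C}

theorem card_VF (F : Finset W) : Fintype.card (VF F) = F.card + 1 := by
  rw [Fintype.card_coe, fp, card_insert_of_notMem (by simp),
    card_image_of_injective _ (Option.some_injective _)]

theorem card_sub {F : Finset W} {A : Finset (Option W)} (h : A ⊆ F.image some) :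
    (A.subtype (· ∈ fp F)).card = A.card :=
  (card_subtype _ _).trans (congrArg card
    (filter_true_of_mem (p := (· ∈ fp F)) fun v hv => mem_insert_of_mem (h hv)))

theorem card_top {b : ℕ} {F : Finset W} (h : F ∈ tops cl b) : F.card = b := by
  simp only [tops, mem_filter] at h
  exact h.2.1

theorem card_tops (b : ℕ) : (tops cl b).card ≤ Fintype.card W ^ b :=
  (card_le_card fun F hF => mem_powersetCard_univ.2 (card_top hF)).trans
    ((card_powersetCard _ _).trans_le (Nat.choose_le_pow _ _))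

theorem num_hat {s b c : ℕ} {Y t n : ℝ} (hb : b ≤ s) (hc : 2 * s + 22 ≤ c) (hY : (c : ℝ) ≤ Y)
    (t1 : t ≤ Y ^ b) (n0 : 0 ≤ n) (n1 : n ≤ 2 * Y * Y ^ b) :
    n ≤ Y ^ c ∧ t * Y + 4 * (n + 1) ^ 2 ≤ Y ^ c := by
  have h0 : (22 : ℝ) ≤ Y := le_trans (by exact_mod_cast (by omega : 22 ≤ c)) hY
  have h1 : Y ^ b ≤ Y ^ s := pow_le_pow_right₀ (by linarith) hb
  have h2 : Y ^ (2 * s + 5) ≤ Y ^ c := pow_le_pow_right₀ (by linarith) (by omega)
  have h3 : 1 ≤ Y ^ s := one_le_pow₀ (by linarith)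
  have h4 : Y ^ (2 * s + 5) = Y * (Y ^ 2 * Y ^ s) ^ 2 := by ring
  have h5 : n + 1 ≤ Y ^ 2 * Y ^ s := by nlinarith
  have h6 : t * Y ≤ Y ^ 2 * Y ^ s := by nlinarith
  have h7 : (n + 1) ^ 2 ≤ (Y ^ 2 * Y ^ s) ^ 2 := pow_le_pow_left₀ (by linarith) h5 2
  constructor <;> nlinarith

theorem hat (hS : SYF) (s τ : ℕ) : HAT s τ := by
  refine ⟨2 * s + 22 + 2 * s.factorial ^ 2, ?_⟩
  intro N T C W E J _ _ _ _ _ _ cl m b Z D H B κ σ Y hT hZ hb hm hD hW hY hSt
  classical
  have hF := fun F => hS s N T C W E cl m τ D.X Y F hT hD.ok hD.sz hD.tf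
  choose pe a1 a2 a3 using fun F => exists_pe (hF F).1 (hF F).2.1
  choose p₀ b0 b1 b2 using fun F j => exists_mh (hF F).2.1.ne (fun _ _ => subset_univ _)
    (⟨on_univ _, fun v _ => (hF F).2.2.2.2 _ _ (hD.dg j) v⟩ : Fm _ univ univ _)
  let G₀ : Matrix (E ⊕ J) (E ⊕ J) ℝ := fromBlocks D.X.G 0 0 1
  let l₀ : E ⊕ J → ℕ :=
    Sum.elim (fun e => if (D.X.fc e).card ≤ b then (D.X.fc e).card else 1) fun _ => b + 1
  let en : ∀ F : tops cl b, EF D.X.fc F → T.ι ⊕ (E ⊕ J) × tops cl b :=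
    fun F e => Sum.inr (Sum.inl e.1, F)
  let Q : (E ⊕ J) × tops cl b → MvPolynomial (T.ι ⊕ (E ⊕ J) × tops cl b) ℝ := fun k =>
    Sum.elim (fun e => if h : D.X.fc e ⊆ k.2.1.image some then
      bind₁ (dg Sum.inl (en k.2)) (pe k.2 ⟨e, h⟩) else 0)
      (fun j => bind₁ (dg Sum.inl (en k.2)) (p₀ k.2 j)) k.1
  have cF : ∀ F : tops cl b, F.1.card = b := fun F => card_top F.2
  have cV : ∀ F : tops cl b, Fintype.card (VF F.1) = b + 1 := fun F => by rw [card_VF, cF]
  have l2 : ∀ (F : tops cl b) (e : EF D.X.fc F), l₀ (Sum.inl e.1) = ((D.X.sy F).fc e).card :=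
    fun F e => (if_pos ((card_le_card e.2).trans (card_image_le.trans (cF F).le))).trans
      (card_sub e.2).symm
  have p0 : G₀.PosDef := posDef_blocks hD.ok.pd PosDef.one
  have pk : (blockDiagonal fun _ : tops cl b => G₀).PosDef :=
    P057GH.posDef_of_qq (P057GH.herm_bd fun _ => p0.1) fun x hx => by
      rw [P057GH.qq_bd]; exact P057GH.sum_qq_pos p0 hx
  have hN : New T (fun k => l₀ k.1) (fun k => Sum.elim D.X.tr (fun _ => τ) k.1) Q
      (blockDiagonal fun _ => G₀) m s := by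
    refine ⟨?_, ?_, ?_, pk, ?_⟩
    · rintro ⟨e | j, F⟩
      · have := card_pos.2 (hD.ok.ne e)
        simp only [l₀, Sum.elim_inl]
        split_ifs <;> omega
      · simp only [l₀, Sum.elim_inr]
        omega
    · rintro ⟨e | j, F⟩
      · simp only [Q, Sum.elim_inl]
        split_ifs with k
        · exact (l2 F ⟨e, k⟩).symm ▸ wh_dg (lw := Sum.elim T.lv fun k => l₀ k.1) (eo := Sum.inl)
            (en := en F) (fun _ => rfl) (l2 F) (a2 F ⟨e, k⟩)
        · exact isWeightedHomogeneous_zero _ _ _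
      · have := wh_dg (lw := Sum.elim T.lv fun k => l₀ k.1) (eo := Sum.inl)
          (en := en F) (fun _ => rfl) (l2 F) (b2 F j)
        rwa [card_univ, cV] at this
    · rintro ⟨e | j, F⟩ k' - hk
      · simp only [Q, Sum.elim_inl] at hk
        split_ifs at hk with k
        · obtain ⟨a, c⟩ | ⟨e', h1, c⟩ := vars_dg hk
          · cases c
          · cases c
            exact a3 F _ e' h1
        · simp at hk
      · obtain ⟨a, c⟩ | ⟨e', h1, c⟩ := vars_dg hk
        · cases c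
        · cases c
          exact hD.sz.tr _
    · rintro ⟨x, F⟩ ⟨x', F'⟩ c
      have c' : G₀ x x' ≠ 0 := fun k => c (by simp [blockDiagonal_apply, k])
      rcases x with e | j <;> rcases x' with e' | j'
      · have := hD.ok.ort e e' c'
        exact ⟨by simp only [l₀, Sum.elim_inl, this.1], this.2⟩
      exacts [absurd rfl c', absurd rfl c', ⟨rfl, rfl⟩]
  have sep : ∀ z : (E ⊕ J) × tops cl b → ℤ, z ≠ 0 →
      1 ≤ qq (blockDiagonal fun _ => G₀) (toR z) := fun z hz => by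
    obtain ⟨⟨e | j, F⟩, k⟩ := Function.ne_iff.1 hz
    · exact (hD.sz.sep (fun e => z (Sum.inl e, F)) (Function.ne_iff.2 ⟨e, k⟩)).trans
        ((le_inl PosDef.one fun a => toR z (a, F)).trans (le_bd p0 _ F))
    · refine le_trans ?_ ((sq_le_one_mat _ j).trans
        ((le_inr hD.ok.pd fun a => toR z (a, F)).trans (le_bd p0 _ F)))
      change (1 : ℝ) ≤ (z (Sum.inr j, F) : ℝ) ^ 2
      exact_mod_cast (sq_pos_of_ne_zero k : 0 < z (Sum.inr j, F) ^ 2)
  obtain ⟨o1, o2, o3, c, -, -, -, o4, o5, o6⟩ := addt' hN hT hZ sep hSt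
  have Y0 : (0 : ℝ) ≤ Y := (Nat.cast_nonneg _).trans hY
  have t1 : ((tops cl b).card : ℝ) ≤ Y ^ b := (Nat.cast_le.2 (card_tops b)).trans
    ((Nat.cast_pow _ _).trans_le (pow_le_pow_left₀ (Nat.cast_nonneg _) hW b))
  have nm := num_hat (n := Fintype.card ((E ⊕ J) × tops cl b)) (by omega : b ≤ s)
    (Nat.le_add_right _ _) hY t1 (Nat.cast_nonneg _) (by
      rw [Fintype.card_prod, Fintype.card_sum, Fintype.card_coe]
      push_cast
      exact mul_le_mul (by linarith [hD.sz.card, hD.cj]) t1 (Nat.cast_nonneg _) (by linarith))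
  refine ⟨_, _, _, o1, o4, o2, fun e => ⟨?_, ?_⟩, o5 0, o6, fun F hF' j => ?_⟩
  · rw [(o3 e).1]
    exact add_le_add_right ((Nat.cast_le.2 (card_le_univ _)).trans nm.1) _
  · rw [(o3 e).2]
    refine add_le_add_right ((logdet_bk pk sep _ fun i hi j hj => by_contra fun k =>
      hi ((hN.ort i j k).1.trans hj)).trans (le_trans (add_le_add_left ?_ _) nm.2)) _
    rw [det_blockDiagonal, prod_const, Real.log_pow, card_univ, Fintype.card_coe, mul_div_assoc,
      det_fromBlocks_zero₂₁, det_one, mul_one]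
    exact mul_le_mul_of_nonneg_left (logdet_le_cx hD.ok.pd hD.sz.cx) (Nat.cast_nonneg _)
  · refine hat_core (hN.isPre hT.ok0) (hF F).1 (hF F).2.2.1.sep (eo := Sum.inl) (en := en ⟨F, hF'⟩)
      (a₀ := Sum.inr (Sum.inr j, ⟨F, hF'⟩)) (fun _ => rfl) (l2 ⟨F, hF'⟩) (cV ⟨F, hF'⟩).symm
      ((cV ⟨F, hF'⟩).trans_lt hb) (a1 F) (a2 F) (a3 F) (fun e => dif_pos e.2) (b1 F j) (b2 F j) rfl
      (fun v => ?_) (fun v => ?_) (top_ren _) ?_
    · refine le_trans ?_ ((le_inl PosDef.one fun a => v (Sum.inr (a, ⟨F, hF'⟩))).trans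
        ((le_bd p0 (v ∘ Sum.inr) _).trans (le_inr hT.pd v)))
      refine (P057ST.qq_bk _ _ _).trans_le (le_trans (le_of_eq (congrArg _ (funext fun e => ?_)))
        (qq_mask_le hD.ok.pd (fun e e' k => by_contra fun c => k (hD.ok.ort e e' c).1)
          (· ⊆ F.image some) _))
      split_ifs <;> rfl
    · exact (sq_le_one_mat _ j).trans ((le_inr hD.ok.pd fun a => v (Sum.inr (a, ⟨F, hF'⟩))).trans
        ((le_bd p0 (v ∘ Sum.inr) _).trans (le_inr hT.pd v)))
    · have h1 : ((Fintype.card (VF F)).factorial : ℝ) ≤ s.factorial :=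
        Nat.cast_le.2 (Nat.factorial_le ((cV ⟨F, hF'⟩).trans_le (by omega)))
      have h2 := pow_le_pow_left₀ (Nat.cast_nonneg _) h1 2
      push_cast at hY
      linarith [Real.add_one_le_exp Y, (Nat.cast_nonneg s : (0 : ℝ) ≤ s)]

end

end Vale.Agent.P057HT
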