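import Vale.Agent.P057TE.Sym
import Vale.Agent.P057AD.Flat
import Vale.Agent.P057PC.Blow

/-! Multilinear functions are polynomials; sums over all placements of a face. -/

set_option linter.all false

open Matrix Finset MvPolynomial
open Vale.Agent.P267.H775 Vale.Agent.P057G Vale.Agent.P057PC Vale.Agent.P057MA Vale.Agent.P057TE

namespace Vale.Agent.P057HT

noncomputable section

theorem hom_of_scale {σ : Type} {w : σ → ℕ} {n : ℕ} {J : MvPolynomial σ ℝ}
    (h : ∀ y : σ → ℝ, eval (fun a => 2 ^ w a * y a) J = 2 ^ n * eval y J) :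
    J.IsWeightedHomogeneous w n := by
  classical
  have h1 : ∑ d ∈ J.support, monomial d (J.coeff d * (2 ^ Finsupp.weight w d - 2 ^ n)) = 0 := by
    refine MvPolynomial.funext fun y => ?_
    have := h y
    rw [J.as_sum, map_sum, map_sum, mul_sum, ← sub_eq_zero, ← sum_sub_distrib] at this
    rw [map_zero, map_sum, ← this]
    refine sum_congr rfl fun d _ => ?_
    rw [eval_monomial, eval_monomial, eval_monomial, prod_scale]
    ring
  intro d hd
  have h2 := congrArg (coeff d) h1
  rw [coeff_sum, coeff_zero] at h2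
  simp only [coeff_monomial, sum_ite_eq', mem_support_iff.2 hd, if_true] at h2
  exact pow_right_injective₀ two_pos (by norm_num)
    (sub_eq_zero.1 ((mul_eq_zero.1 h2).resolve_left hd))

variable {V L : Type} [DecidableEq V]

section poly

variable [Fintype L] [DecidableEq L]

theorem exists_poly {S : MS V L} (hne : ∀ i, (S.fc i).Nonempty) (A : Finset V) :
    ∀ (q : Finset L) (f : (L → ℝ) → ℝ), (∀ i ∈ q, S.fc i ⊆ A) → Af S q A f →
      ∃ p ∈ supported ℝ (q : Set L), ∀ z, f z = eval z p := by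
  induction A using Finset.induction_on with
  | empty =>
    intro q f hq hf
    refine ⟨C (f 0), Subalgebra.algebraMap_mem _ _, fun z => ?_⟩
    rw [eval_C]
    exact hf.on _ _ fun i h => absurd (subset_empty.1 (hq i h)) (hne i).ne_empty
  | insert v A hv ih =>
    intro q f hq hf
    have h1 : ∀ a : L → ℝ, ∃ p ∈ supported ℝ (q : Set L), ∀ z, f (mix (S.st v) a z) = eval z p :=
      fun a => by
        obtain ⟨p, k1, k2⟩ := ih _ _ (fun i h => (subset_insert_iff_of_notMem fun h2 =>
          (Finset.mem_sdiff.1 h).2 (S.mem_st.2 h2)).1 (hq i (Finset.mem_sdiff.1 h).1))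
          ((hf.fix v a).mono Subset.rfl (subset_insert _ _))
        exact ⟨p, supported_mono (coe_subset.2 sdiff_subset) k1, k2⟩
    choose I hI hI' using h1
    refine ⟨I 0 + ∑ j ∈ q ∩ S.st v, (I (Pi.single j 1) - I 0) * X j, add_mem (hI 0)
      (sum_mem fun j hj => mul_mem (sub_mem (hI _) (hI _))
        (X_mem_supported.2 (mem_inter.1 hj).1)), fun z => ?_⟩
    have h2 := aff_expand hf.on (hf.aff v (mem_insert_self _ _)) z z
    rw [mix_self] at h2
    simp only [map_add, map_sum, map_mul, map_sub, eval_X, ← hI']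
    exact h2

/-- a multilinear form is a polynomial whose monomials partition the face -/
theorem exists_mh {S : MS V L} (hne : ∀ i, (S.fc i).Nonempty) {B : Finset V} {q : Finset L}
    {f : (L → ℝ) → ℝ} (hq : ∀ i ∈ q, S.fc i ⊆ B) (hf : Fm S q B f) : ∃ p : MvPolynomial L ℝ,
      p.vars ⊆ q ∧ (∀ z, f z = eval z p) ∧ p.IsWeightedHomogeneous (fun i => (S.fc i).val) B.val := by
  obtain ⟨p, h1, h2⟩ := exists_poly hne B q f hq hf.af
  refine ⟨p, coe_subset.1 (mem_supported.1 h1), h2, fun d hd => Multiset.ext.2 fun v => ?_⟩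
  have h3 : p.IsWeightedHomogeneous (fun i => (S.fc i).val.count v) (B.val.count v) := by
    refine hom_of_scale fun y => ?_
    rw [← h2, ← h2]
    by_cases hv : v ∈ B
    · have e : (fun a => 2 ^ (S.fc a).val.count v * y a) = mix (S.st v) ((2 : ℝ) • y) y := by
        funext a
        by_cases k : v ∈ S.fc a
        · rw [mix_pos _ _ (S.mem_st.2 k), Multiset.count_eq_one_of_mem (S.fc a).nodup k]
          simp
        · rw [mix_neg _ _ fun c => k (S.mem_st.1 c), Multiset.count_eq_zero_of_notMem k]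
          simp
      rw [e, Multiset.count_eq_one_of_mem B.nodup hv, (hf.lin v hv y).map_smul, mix_self]
      simp
    · rw [Multiset.count_eq_zero_of_notMem hv, pow_zero, one_mul]
      exact hf.on _ _ fun i hi => by
        rw [Multiset.count_eq_zero_of_notMem fun c => hv (hq i hi c), pow_zero, one_mul]
  rw [← h3 hd]
  simp only [Finsupp.weight_apply, Finsupp.sum, Multiset.count_sum', Multiset.count_nsmul,
    smul_eq_mul]

end poly

theorem mh_card {fc : L → Finset V} {p : MvPolynomial L ℝ} {B : Finset V}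
    (h : p.IsWeightedHomogeneous (fun i => (fc i).val) B.val) :
    p.IsWeightedHomogeneous (fun i => (fc i).card) B.card := fun d hd => by
  have := congrArg Multiset.cardHom (h hd)
  simp only [Finsupp.weight_apply, Finsupp.sum, map_sum, map_nsmul] at this ⊢
  exact this

theorem mh_vars {fc : L → Finset V} {p : MvPolynomial L ℝ} {B : Finset V}
    (h : p.IsWeightedHomogeneous (fun i => (fc i).val) B.val) {i : L} (hi : i ∈ p.vars) :
    fc i ⊆ B := by
  classical
  obtain ⟨d, h1, h2⟩ := (mem_vars i).1 hi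
  rw [← val_le_iff, ← h (mem_support_iff.1 h1)]
  exact Finsupp.le_weight_of_ne_zero' (fun i => (fc i).val) (Finsupp.mem_support_iff.1 h2)

variable [Fintype V]

/-- the placements of the face `B` -/
def Nf (B : Finset V) : Finset (V → V) := univ.filter fun χ => ∀ v ∉ B, χ v = v

/-- the sum over the placements -/
def Sg (B : Finset V) (f : (V → V) → ℝ) : Alg (Multiset V) :=
  ∑ χ ∈ Nf B, AddMonoidAlgebra.single (B.val.map χ) (f χ)

/-- a function of the placement of `B` -/
def Lc (B : Finset V) (f : (V → V) → ℝ) : Prop := ∀ χ χ', (∀ v ∈ B, χ v = χ' v) → f χ = f χ'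

/-- the placements of `B` onto `A` -/
def Nb (B A : Finset V) : Finset (V → V) := (Nf B).filter fun χ => B.val.map χ = A.val

theorem mem_Nf {B : Finset V} {χ : V → V} : χ ∈ Nf B ↔ ∀ v ∉ B, χ v = v := by simp [Nf]

theorem coeff_Sg (B A : Finset V) (f : (V → V) → ℝ) :
    (Sg B f).coeff A.val = ∑ χ ∈ Nb B A, f χ := by
  rw [Sg, AddMonoidAlgebra.coeff_sum, Finsupp.finsetSum_apply, Nb, sum_filter]
  exact sum_congr rfl fun χ _ => by rw [AddMonoidAlgebra.coeff_single, Finsupp.single_apply]

theorem Sg_empty (f : (V → V) → ℝ) : Sg ∅ f = algebraMap ℝ _ (f id) := by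
  rw [Sg, show Nf (∅ : Finset V) = {id} from by ext χ; simp [mem_Nf, funext_iff], sum_singleton]
  rfl

theorem Sg_mul {B B' : Finset V} (h : Disjoint B B') {f f' : (V → V) → ℝ} (hf : Lc B f)
    (hf' : Lc B' f') : Sg B f * Sg B' f' = Sg (B ∪ B') fun χ => f χ * f' χ := by
  have hd := Finset.disjoint_left.1 h
  rw [Sg, Sg, sum_mul_sum, ← sum_product', Sg]
  refine sum_nbij' (fun x => B.piecewise x.1 x.2) (fun χ => (B.piecewise χ id, B'.piecewise χ id))
    (fun x hx => mem_Nf.2 fun v hv => ?_) (fun χ _ => mem_product.2 ⟨mem_Nf.2 fun v hv => ?_,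
      mem_Nf.2 fun v hv => ?_⟩) (fun x hx => Prod.ext (funext fun v => ?_) (funext fun v => ?_))
    (fun χ hχ => funext fun v => ?_) fun x hx => ?_
  · rw [piecewise_eq_of_notMem _ _ _ fun c => hv (mem_union_left _ c)]
    exact mem_Nf.1 (mem_product.1 hx).2 v fun c => hv (mem_union_right _ c)
  · exact piecewise_eq_of_notMem _ _ _ hv
  · exact piecewise_eq_of_notMem _ _ _ hv
  · by_cases k : v ∈ B
    · simp [k]
    · simpa [k] using (mem_Nf.1 (mem_product.1 hx).1 v k).symm
  · by_cases k : v ∈ B'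
    · simp [k, show v ∉ B from fun c => hd c k]
    · simpa [k] using (mem_Nf.1 (mem_product.1 hx).2 v k).symm
  · by_cases k : v ∈ B
    · simp [k]
    · by_cases k' : v ∈ B'
      · simp [k, k']
      · simpa [k, k'] using (mem_Nf.1 hχ v (by simp [k, k'])).symm
  · have e1 : ∀ v ∈ B, x.1 v = B.piecewise x.1 x.2 v := fun v k =>
      (piecewise_eq_of_mem _ _ _ k).symm
    have e2 : ∀ v ∈ B', x.2 v = B.piecewise x.1 x.2 v := fun v k =>
      (piecewise_eq_of_notMem _ _ _ fun c => hd c k).symm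
    rw [AddMonoidAlgebra.single_mul_single, hf _ _ e1, hf' _ _ e2, ← disjUnion_eq_union _ _ h,
      Multiset.map_congr rfl e1, Multiset.map_congr rfl e2, ← Multiset.map_add]
    rfl

theorem lc_eval {fc : L → Finset V} {u : L → (V → V) → ℝ} (hu : ∀ i, Lc (fc i) (u i))
    {p : MvPolynomial L ℝ} {B : Finset V}
    (h : p.IsWeightedHomogeneous (fun i => (fc i).val) B.val) :
    Lc B fun χ => eval (fun i => u i χ) p := fun χ χ' e =>
  eval₂Hom_congr' rfl (fun i hi _ => hu i χ χ' fun v hv => e v (mh_vars h hi hv)) rfl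

/-- sums over placements are multiplicative -/
theorem aeval_Sg {fc : L → Finset V} {u : L → (V → V) → ℝ} (hu : ∀ i, Lc (fc i) (u i))
    {p : MvPolynomial L ℝ} {B : Finset V}
    (h : p.IsWeightedHomogeneous (fun i => (fc i).val) B.val) :
    aeval (fun i => Sg (fc i) (u i)) p = Sg B fun χ => eval (fun i => u i χ) p := by
  classical
  induction h using IsWeightedHomogeneous.induction_on with
  | zero => simp [Sg]
  | add p q _ _ hp hq =>
    rw [map_add, hp, hq]
    simp only [map_add, Sg, AddMonoidAlgebra.single_add, sum_add_distrib]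
  | monomial d r hr =>
    obtain ⟨s, rfl⟩ := Multiset.toFinsupp.surjective d
    induction s using Multiset.induction_on generalizing B with
    | empty =>
      rw [map_zero, map_zero, eq_comm, val_eq_zero] at hr
      rw [hr, Sg_empty, map_zero, monomial_zero', aeval_C, eval_C]
    | cons i s ih =>
      rw [← Multiset.singleton_add, map_add, Multiset.toFinsupp_singleton] at hr ⊢
      rw [map_add, Finsupp.weight_single, one_smul] at hr
      have h1 : fc i ⊆ B := val_le_iff.1 (hr ▸ Multiset.le_add_right _ _)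
      have h2 : Finsupp.weight (fun i => (fc i).val) s.toFinsupp = (B \ fc i).val := by
        rw [sdiff_val, ← hr, add_tsub_cancel_left]
      simp only [monomial_single_add, map_mul, pow_one, aeval_X, eval_X]
      rw [ih h2, Sg_mul disjoint_sdiff (hu i) (lc_eval hu (isWeightedHomogeneous_monomial _ _ _ h2)),
        union_sdiff_of_subset h1]

theorem Sg_one (B : Finset V) : Sg B (fun _ => 1) = (P057ST.lin fun _ => 1) ^ B.card := by
  induction B using Finset.induction_on with
  | empty => rw [Sg_empty, map_one, card_empty, pow_zero]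
  | insert v B hv ih =>
    have h := Sg_mul (disjoint_singleton_left.2 hv) (f := fun _ => 1) (f' := fun _ => 1)
      (fun _ _ _ => rfl) fun _ _ _ => rfl
    rw [card_insert_of_notMem hv, pow_succ', ← ih, insert_eq, ← mul_one (1 : ℝ), ← h, mul_one]
    congr 1
    refine sum_nbij' (fun χ => χ v) (fun w => Function.update id v w) (fun _ _ => mem_univ _)
      (fun w _ => mem_Nf.2 fun x hx => Function.update_of_ne (by simpa using hx) _ _)
      (fun χ hχ => funext fun x => ?_) (fun w _ => Function.update_self _ _ _) fun χ _ => rfl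
    by_cases k : x = v
    · rw [k, Function.update_self]
    · rw [Function.update_of_ne k]
      exact (mem_Nf.1 hχ x (by simpa using k)).symm

theorem card_Nb (B A : Finset V) :
    ((Nb B A).card : ℝ) = if A.card = B.card then (B.card.factorial : ℝ) else 0 := by
  rw [← coeff_pow, ← Sg_one, coeff_Sg, sum_const, nsmul_one]

open Classical in
/-- a permutation that extends the placement -/
def ext (B : Finset V) (χ : V → V) : Equiv.Perm V :=
  if h : ∃ ρ : Equiv.Perm V, ∀ v ∈ B, ρ v = χ v then h.choose else 1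

theorem ext_congr {B : Finset V} {χ χ' : V → V} (h : ∀ v ∈ B, χ v = χ' v) :
    ext B χ = ext B χ' := by
  have : (fun ρ : Equiv.Perm V => ∀ v ∈ B, ρ v = χ v) = fun ρ => ∀ v ∈ B, ρ v = χ' v :=
    funext fun ρ => propext (forall₂_congr fun v hv => by rw [h v hv])
  unfold ext
  congr!

theorem ext_eq {B : Finset V} {χ : V → V} (h : Set.InjOn χ B) : ∀ v ∈ B, ext B χ v = χ v := by
  have : ∃ ρ : Equiv.Perm V, ∀ v ∈ B, ρ v = χ v := by
    obtain ⟨ρ, hρ⟩ := Equiv.Perm.exists_extending_pair (α := (B : Set V)) _ _ Subtype.val_injective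
      (Set.injOn_iff_injective.1 h)
    exact ⟨ρ, fun v hv => hρ ⟨v, hv⟩⟩
  rw [ext, dif_pos this]
  exact this.choose_spec

theorem inj_Nb {B A : Finset V} {χ : V → V} (h : χ ∈ Nb B A) : Set.InjOn χ B :=
  Multiset.inj_on_of_nodup_map ((mem_filter.1 h).2 ▸ A.nodup)

theorem map_ext {B A : Finset V} {χ : V → V} (h : χ ∈ Nb B A) :
    B.map (ext B χ).toEmbedding = A :=
  val_injective ((Multiset.map_congr rfl (ext_eq (inj_Nb h))).trans (mem_filter.1 h).2)

theorem sum_Nb_univ (f : Equiv.Perm V → ℝ) :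
    ∑ χ ∈ Nb univ univ, f (ext univ χ) = ∑ ρ, f ρ := by
  have e : ∀ ρ : Equiv.Perm V, ext univ ρ = ρ := fun ρ =>
    Equiv.ext fun v => ext_eq ρ.injective.injOn v (mem_univ v)
  refine sum_nbij' (ext univ) (fun ρ => ρ) (fun _ _ => mem_univ _) (fun ρ _ => mem_filter.2
    ⟨mem_Nf.2 fun v hv => absurd (mem_univ v) hv, congrArg Finset.val (map_univ_equiv ρ)⟩)
    (fun χ h => funext fun v => ext_eq (inj_Nb h) v (mem_univ v)) (fun ρ _ => e ρ) fun _ _ => rfl

/-- the squarefree coefficients of a multilinear polynomial at symmetrised points -/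
theorem coeff_aeval {fc : L → Finset V} {z : Equiv.Perm V → L → ℝ}
    (hz : ∀ i ρ ρ', (∀ v ∈ fc i, ρ v = ρ' v) → z ρ i = z ρ' i) {p : MvPolynomial L ℝ}
    {B : Finset V} (h : p.IsWeightedHomogeneous (fun i => (fc i).val) B.val)
    {U : L → Alg (Multiset V)} (hU : ∀ i ∈ p.vars, ∀ A : Finset V,
      (U i).coeff A.val = ∑ χ ∈ Nb (fc i) A, z (ext (fc i) χ) i) (A : Finset V) :
    (aeval U p).coeff A.val = ∑ χ ∈ Nb B A, eval (z (ext B χ)) p := by
  classical
  let u : L → (V → V) → ℝ := fun i χ => z (ext (fc i) χ) i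
  have h1 := (P057PC.Sup.eval_sub (I := fun m : Multiset V => ¬ m.Nodup)
    (fun m m' h1 h2 => h1 (Multiset.nodup_add.1 h2).1)
    (x := fun i => if i ∈ p.vars then U i else Sg (fc i) (u i)) (x' := fun i => Sg (fc i) (u i))
    (fun i μ hμ h2 => hμ ?_) (MvPolynomial.map (algebraMap ℝ _) p)).coeff (not_not.2 A.nodup)
  · have hu : ∀ i, Lc (fc i) (u i) := fun i _ _ e => congrArg (z · i) (ext_congr e)
    rw [eval_map, eval_map, ← aeval_def, ← aeval_def, aeval_Sg hu h, AddMonoidAlgebra.coeff_sub,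
      Finsupp.sub_apply, sub_eq_zero, coeff_Sg] at h1
    have h2 : aeval U p = aeval (fun i => if i ∈ p.vars then U i else Sg (fc i) (u i)) p := by
      rw [aeval_eq_eval₂Hom, aeval_eq_eval₂Hom]
      exact eval₂Hom_congr' rfl (fun i hi _ => (if_pos hi).symm) rfl
    rw [h2, h1]
    refine sum_congr rfl fun χ hχ => eval₂Hom_congr' rfl (fun i hi _ => hz i _ _ fun v hv => ?_) rfl
    have k := mh_vars h hi
    rw [ext_eq (inj_Nb hχ) v (k hv), ext_eq ((inj_Nb hχ).mono (coe_subset.2 k)) v hv]
  · split_ifs with k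
    · rw [AddMonoidAlgebra.coeff_sub, Finsupp.sub_apply, sub_eq_zero]
      exact (hU i k ⟨μ, h2⟩).trans (coeff_Sg _ ⟨μ, h2⟩ _).symm
    · rw [sub_self]
      rfl

/-- an integer vector that is a short combination vanishes -/
theorem int_zero {K τ J : Type} [Fintype K] [DecidableEq K] {G : Matrix K K ℝ} (hG : G.PosDef)
    {lb : K → τ} (hb : P057AD.Bd lb lb G) (sep : ∀ k : K → ℤ, k ≠ 0 → 1 ≤ qq G (toR k))
    (s : Finset J) {v₀ : K → ℝ} {v : J → K → ℝ} {δ : ℝ} (h0 : qq G v₀ ≤ δ)
    (hv : ∀ j ∈ s, qq G (v j) ≤ δ) (hδ : (2 + 2 * (s.card : ℝ) ^ 2) * δ < 1) {k : K → ℤ} {e : K}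
    (hk : ∀ e', lb e' = lb e → (k e' : ℝ) = v₀ e' - ∑ j ∈ s, v j e') : k e = 0 := by
  classical
  by_contra c
  have h1 := sep (fun e' => if lb e' = lb e then k e' else 0)
    (Function.ne_iff.2 ⟨e, by simpa using c⟩)
  have h2 := P057AD.qq_mask_le hG hb (· = lb e) (v₀ - ∑ j ∈ s, v j)
  have h3 : (toR fun e' => if lb e' = lb e then k e' else 0) =
      fun e' => if lb e' = lb e then (v₀ - ∑ j ∈ s, v j) e' else 0 := funext fun e' => by
    rw [toR_apply]
    split_ifs with c
    exacts [by rw [hk e' c, Pi.sub_apply, Finset.sum_apply], Int.cast_zero]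
  have h4 := (qq_sum_le hG.posSemidef s v).trans (mul_le_mul_of_nonneg_left
    (sum_le_card_nsmul _ _ δ hv) (Nat.cast_nonneg _))
  rw [nsmul_eq_mul] at h4
  rw [h3] at h1
  nlinarith [qq_add hG.1 v₀ (∑ j ∈ s, v j), qq_sub hG.1 v₀ (∑ j ∈ s, v j),
    qq_nonneg hG.posSemidef (v₀ + ∑ j ∈ s, v j)]

end

end Vale.Agent.P057HT
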